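import Vale.Agent.Lib.P368.AdvS.Defs

/-!
# P368, ancilla preprocessing with the sharp exponent: the transferred matrices of an input
qubit in terms of the four one-qubit sums
-/

namespace Vale.Agent.Lib.P368

open Finset

/-- The transferred matrix of an input qubit whose states are the columns of `u`: a multiple
of the projector onto `0`. -/
theorem br_tMat (u X : Matrix Bool Bool ℂ) :
    tMat true (colMat u) X =
      ((starRingEnd ℂ) (u false false) * X false false * u false false
        + (starRingEnd ℂ) (u false false) * X false true * u true false
        + (starRingEnd ℂ) (u true false) * X true false * u false false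
        + (starRingEnd ℂ) (u true false) * X true true * u true false
        - ((starRingEnd ℂ) (u false true) * X false false * u false true
        + (starRingEnd ℂ) (u false true) * X false true * u true true
        + (starRingEnd ℂ) (u true true) * X true false * u false true
        + (starRingEnd ℂ) (u true true) * X true true * u true true)) • e00 := by
  ext i j
  cases i <;> cases j <;>
    simp only [tMat, colMat, e00, wt, Matrix.mul_apply, Matrix.sum_apply, Matrix.smul_apply,
      Matrix.conjTranspose_apply, Fintype.sum_bool, smul_eq_mul, Complex.star_def,
      Bool.false_eq_true, Bool.true_eq_false, if_false, if_true, and_self, and_true, and_false,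
      map_zero, mul_zero, zero_mul, add_zero, mul_one, Complex.ofReal_one,
      Complex.ofReal_neg]
  ring

/-- The sum `K0` of `kap true m u`, expanded. -/
theorem br_K0 (u m : Matrix Bool Bool ℂ) :
    K0 (kap true m u) =
      (m false false * (starRingEnd ℂ) (m false false))
          * (u false false * (starRingEnd ℂ) (u false false))
      + (m false false * (starRingEnd ℂ) (m false true))
          * (u false false * (starRingEnd ℂ) (u true false))
      + (m false true * (starRingEnd ℂ) (m false false))
          * (u true false * (starRingEnd ℂ) (u false false))
      + (m false true * (starRingEnd ℂ) (m false true))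
          * (u true false * (starRingEnd ℂ) (u true false))
      + (m true false * (starRingEnd ℂ) (m true false))
          * (u false false * (starRingEnd ℂ) (u false false))
      + (m true false * (starRingEnd ℂ) (m true true))
          * (u false false * (starRingEnd ℂ) (u true false))
      + (m true true * (starRingEnd ℂ) (m true false))
          * (u true false * (starRingEnd ℂ) (u false false))
      + (m true true * (starRingEnd ℂ) (m true true))
          * (u true false * (starRingEnd ℂ) (u true false))
      - ((m false false * (starRingEnd ℂ) (m false false))
          * (u false true * (starRingEnd ℂ) (u false true))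
      + (m false false * (starRingEnd ℂ) (m false true))
          * (u false true * (starRingEnd ℂ) (u true true))
      + (m false true * (starRingEnd ℂ) (m false false))
          * (u true true * (starRingEnd ℂ) (u false true))
      + (m false true * (starRingEnd ℂ) (m false true))
          * (u true true * (starRingEnd ℂ) (u true true))
      + (m true false * (starRingEnd ℂ) (m true false))
          * (u false true * (starRingEnd ℂ) (u false true))
      + (m true false * (starRingEnd ℂ) (m true true))
          * (u false true * (starRingEnd ℂ) (u true true))
      + (m true true * (starRingEnd ℂ) (m true false))
          * (u true true * (starRingEnd ℂ) (u false true))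
      + (m true true * (starRingEnd ℂ) (m true true))
          * (u true true * (starRingEnd ℂ) (u true true))) := by
  simp only [K0, kap, wt, Fintype.sum_prod_type, Fintype.sum_bool, Bool.false_eq_true,
    if_false, if_true, Complex.ofReal_one, Complex.ofReal_neg]
  ring

/-- For an input qubit whose states are the columns of `u`, the four transferred matrices of
`O = m† m` are the four sums `K0`, `K2`, `K1`, `K3` of `kap true m u` times the projector
onto `0`. -/
theorem tMat_true_colMat (u m : Matrix Bool Bool ℂ) :
    tMat true (colMat u) (m.conjTranspose * m) = K0 (kap true m u) • e00 ∧
      tMat true (colMat u) (projOne * (m.conjTranspose * m)) = K2 (kap true m u) • e00 ∧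
      tMat true (colMat u) (m.conjTranspose * m * projOne) = K1 (kap true m u) • e00 ∧
      tMat true (colMat u) (projOne * (m.conjTranspose * m) * projOne) =
        K3 (kap true m u) • e00 := by
  refine ⟨?_, ?_, ?_, ?_⟩
  · rw [br_tMat, br_K0]
    congr 1
    simp only [Matrix.mul_apply, Matrix.conjTranspose_apply, Fintype.sum_bool, Complex.star_def]
    ring
  · rw [br_tMat]
    congr 1
    simp only [K2, kap, wt, projOne, Matrix.mul_apply, Matrix.conjTranspose_apply,
      Fintype.sum_prod_type, Fintype.sum_bool, Complex.star_def, Bool.false_eq_true,
      if_false, if_true, and_self, and_true, and_false, Complex.ofReal_one,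
      Complex.ofReal_neg]
    ring
  · rw [br_tMat]
    congr 1
    simp only [K1, kap, wt, projOne, Matrix.mul_apply, Matrix.conjTranspose_apply,
      Fintype.sum_prod_type, Fintype.sum_bool, Complex.star_def, Bool.false_eq_true,
      if_false, if_true, and_true, and_false, Complex.ofReal_one,
      Complex.ofReal_neg]
    ring
  · rw [br_tMat]
    congr 1
    simp only [K3, kap, wt, projOne, Matrix.mul_apply, Matrix.conjTranspose_apply,
      Fintype.sum_prod_type, Fintype.sum_bool, Complex.star_def, Bool.false_eq_true,
      if_false, if_true, and_self, and_true, and_false, Complex.ofReal_one,
      Complex.ofReal_neg]
    ring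

end Vale.Agent.Lib.P368
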