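import Vale.Agent.Lib.P368.Adv.Main
import Vale.Agent.Lib.P368.Sq.Main
import Vale.Agent.Lib.P368.Sq.Tight

/-!
# P368, ancilla preprocessing with the sharp exponent: definitions

Conventions used in the comments.  For a gate `C` of the layer, its flagged qubits (the input
qubits) are in product states, while its other qubits belong to an arbitrary vector.  The
quadratic form of the operator `gOp` of the gate at a vector `ψ` is written with the vector
`ξ` obtained from `ψ` by projecting the flagged qubits of `C` onto `0` and applying the
matrices `ε p false` on the other qubits of `C`, and with the Gram data of the two vectors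
`m ξ` and `m P ξ` (`P` the projector onto `1` on the unflagged qubits of `C`).
-/

namespace Vale.Agent.Lib.P368

open Finset

/-- The projector onto the basis state `0` of one qubit. -/
def e00 : Matrix Bool Bool ℂ := fun i j => if i = false ∧ j = false then 1 else 0

/-- The cap on the contribution of a gate with `k` flagged qubits: `1` if `k ≤ 1`, else `2`. -/
def gateCap (k : ℕ) : ℝ := if k ≤ 1 then 1 else 2

section

variable {Q : Type} [Fintype Q] [DecidableEq Q]

/-- The vector `ξ`: the flagged qubits of `C` are projected onto `0`, the other qubits of `C`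
are acted on by `ε p false`. -/
noncomputable def xiVec (τ : Q → Bool) (ε : Q → Bool → Matrix Bool Bool ℂ) (C : Finset Q)
    (ψ : StateVec Q) : StateVec Q :=
  oneQubitLayer (fun p => if p ∈ C then (if τ p = true then e00 else ε p false) else 1) ψ

/-- The matrices `m p` on the unflagged qubits of `C`, the identity elsewhere. -/
def mR (τ : Q → Bool) (m : Q → Matrix Bool Bool ℂ) (C : Finset Q) : Q → Matrix Bool Bool ℂ :=
  fun p => if p ∈ C ∧ τ p = false then m p else 1

/-- The matrices `m p * projOne` on the unflagged qubits of `C`, the identity elsewhere. -/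
def mP (τ : Q → Bool) (m : Q → Matrix Bool Bool ℂ) (C : Finset Q) : Q → Matrix Bool Bool ℂ :=
  fun p => if p ∈ C ∧ τ p = false then m p * projOne else 1

/-- Squared norm of `m ξ`. -/
noncomputable def gramX (τ : Q → Bool) (ε : Q → Bool → Matrix Bool Bool ℂ)
    (m : Q → Matrix Bool Bool ℂ) (C : Finset Q) (ψ : StateVec Q) : ℝ :=
  normSqSum (oneQubitLayer (mR τ m C) (xiVec τ ε C ψ))

/-- Squared norm of `m P ξ`. -/
noncomputable def gramZ (τ : Q → Bool) (ε : Q → Bool → Matrix Bool Bool ℂ)
    (m : Q → Matrix Bool Bool ℂ) (C : Finset Q) (ψ : StateVec Q) : ℝ :=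
  normSqSum (oneQubitLayer (mP τ m C) (xiVec τ ε C ψ))

/-- The pairing of `m ξ` with `m P ξ`. -/
noncomputable def gramQ (τ : Q → Bool) (ε : Q → Bool → Matrix Bool Bool ℂ)
    (m : Q → Matrix Bool Bool ℂ) (C : Finset Q) (ψ : StateVec Q) : ℂ :=
  ip (oneQubitLayer (mR τ m C) (xiVec τ ε C ψ)) (oneQubitLayer (mP τ m C) (xiVec τ ε C ψ))

end

end Vale.Agent.Lib.P368
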