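import Vale.Agent.Lib.P368.AdvS.MainS

/-!
# P368, ancilla preprocessing with the sharp exponent: the final statement
-/

namespace Vale.Agent.Lib.P368

open Finset

/-- Preprocessing of the ancillas followed by entangling depth two: the parity correlation is
at most `6 / (sqrt 2)^n`, and this exponent is attained (already without preprocessing). -/
theorem advice_final :
    (∀ (Q : Type) [Fintype Q] [DecidableEq Q] (n : ℕ) (inp : Fin n ↪ Q)
      (pre suf : List (List (TGate Q))), (∀ l ∈ pre, LayerValid l) → (∀ l ∈ suf, LayerValid l) →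
      (∀ l ∈ pre, ∀ g ∈ l, g.isRight = true → ∀ j, inp j ∉ g.support) → entDepth suf ≤ 2 →
      ∀ q : Q, |tParityCorrelation (pre ++ suf) inp q| ≤ 6 / Real.sqrt 2 ^ n ∧
        ∀ ε : ℝ, (∀ x : Fin n → Bool, 1 / 2 + ε ≤ tOutProb (pre ++ suf) inp q x (parity x)) →
          ε ≤ 3 / Real.sqrt 2 ^ n) ∧
    (∀ m : ℕ, 1 ≤ m → ∃ (inp : Fin (2 * m) ↪ Option (Fin m × Bool))
      (Tc : List (List (TGate (Option (Fin m × Bool))))),
      (∀ l ∈ Tc, LayerValid l) ∧ entDepth Tc ≤ 2 ∧
        |tParityCorrelation Tc inp none| = 2 / 2 ^ m) := by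
  refine ⟨?_, fun m hm => depth_two_witness m hm⟩
  intro Q _ _ n inp pre suf hvp hvs hoff hd q
  have hv : ∀ l ∈ pre ++ suf, LayerValid l := by
    intro l hl
    rcases List.mem_append.mp hl with h | h
    · exact hvp l h
    · exact hvs l h
  have h := parity_corr_bound_base 3 (Real.sqrt 2) (fun x b => tOutProb (pre ++ suf) inp q x b)
    (fun x => tOutProb_add (pre ++ suf) hv inp q x)
    (fun b => t_signed_sum_advice_sharp inp pre suf hvp hvs hoff hd q b)
  have e1 : 2 * 3 * Real.sqrt 2 ^ n / 2 ^ n = 6 / Real.sqrt 2 ^ n := by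
    rw [mul_div_assoc, sqrt_two_pow_div]
    ring
  have e2 : 3 * Real.sqrt 2 ^ n / 2 ^ n = 3 / Real.sqrt 2 ^ n := by
    rw [mul_div_assoc, sqrt_two_pow_div]
    ring
  rw [e1, e2] at h
  exact h

end Vale.Agent.Lib.P368
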