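import Vale.Agent.Lib.P368.AdvS.Defs

/-!
# P368, ancilla preprocessing with the sharp exponent: the Gram data of the rest of a gate
-/

namespace Vale.Agent.Lib.P368

open Finset

variable {Q : Type} [Fintype Q] [DecidableEq Q]

/-- The projector onto the basis state `0` does not increase the norm. -/
theorem gr_isContr_e00 : IsContr e00 := by
  intro a b
  have e1 : e00 false false * a + e00 false true * b = a := by simp [e00]
  have e2 : e00 true false * a + e00 true true * b = 0 := by simp [e00]
  rw [e1, e2, map_zero, add_zero]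
  linarith [Complex.normSq_nonneg b]

/-- The vector `ξ` is not longer than `ψ`. -/
theorem gr_xi_le (τ : Q → Bool) (ε : Q → Bool → Matrix Bool Bool ℂ) (C : Finset Q)
    (hε : ∀ p ∈ C, τ p = false → IsContr (ε p false)) (ψ : StateVec Q) :
    normSqSum (xiVec τ ε C ψ) ≤ normSqSum ψ := by
  unfold xiVec
  apply normSqSum_oneQubitLayer_le
  intro p
  by_cases h : p ∈ C
  · rw [if_pos h]
    by_cases ht : τ p = true
    · rw [if_pos ht]
      exact gr_isContr_e00
    · rw [if_neg ht]
      exact hε p h (Bool.eq_false_iff.mpr ht)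
  · rw [if_neg h]
    exact isContr_one

omit [Fintype Q] in
theorem gr_mR_contr (τ : Q → Bool) (m : Q → Matrix Bool Bool ℂ) (C : Finset Q)
    (hm : ∀ p, IsContr (m p)) (p : Q) : IsContr (mR τ m C p) := by
  unfold mR
  split_ifs
  · exact hm p
  · exact isContr_one

theorem gr_normSq_sub (a b : ℂ) :
    Complex.normSq (a - 2 * b) =
      Complex.normSq a - 4 * ((starRingEnd ℂ) a * b).re + 4 * Complex.normSq b := by
  rw [Complex.normSq_apply, Complex.normSq_apply, Complex.normSq_apply]
  simp only [Complex.sub_re, Complex.sub_im, Complex.mul_re, Complex.mul_im, Complex.conj_re,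
    Complex.conj_im, Complex.re_ofNat, Complex.im_ofNat]
  ring

theorem gr_nsq_sub (f g : StateVec Q) :
    normSqSum (fun w => f w - 2 * g w) = normSqSum f - 4 * (ip f g).re + 4 * normSqSum g := by
  unfold normSqSum ip
  rw [Complex.re_sum, Finset.mul_sum, Finset.mul_sum, ← Finset.sum_sub_distrib,
    ← Finset.sum_add_distrib]
  exact Finset.sum_congr rfl fun w _ => gr_normSq_sub (f w) (g w)

omit [Fintype Q] in
theorem gr_mP_eq (τ : Q → Bool) (m : Q → Matrix Bool Bool ℂ) (C : Finset Q) :
    mP τ m C = fun p => mR τ m C p * gp_P (C.filter fun p => τ p = false) p := by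
  funext p
  unfold mP mR gp_P
  by_cases h : p ∈ C ∧ τ p = false
  · have h' : p ∈ C.filter fun p => τ p = false := Finset.mem_filter.mpr h
    rw [if_pos h, if_pos h, if_pos h']
  · have h' : p ∉ C.filter fun p => τ p = false := fun hh => h (Finset.mem_filter.mp hh)
    rw [if_neg h, if_neg h, if_neg h', mul_one]

/-- The Gram data are positive semidefinite, and `x` and `x - 4 Re q + 4 z` (the squared norm
after a multi-controlled `Z` gate on the unflagged qubits of `C`) are at most the squared norm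
of `ψ`. -/
theorem gram_facts (τ : Q → Bool) (ε : Q → Bool → Matrix Bool Bool ℂ)
    (m : Q → Matrix Bool Bool ℂ) (C : Finset Q)
    (hε : ∀ p ∈ C, τ p = false → IsContr (ε p false)) (hm : ∀ p, IsContr (m p))
    (ψ : StateVec Q) :
    sc_psd (gramX τ ε m C ψ) (gramZ τ ε m C ψ) (gramQ τ ε m C ψ) ∧
      gramX τ ε m C ψ ≤ normSqSum ψ ∧
      gramX τ ε m C ψ - 4 * (gramQ τ ε m C ψ).re + 4 * gramZ τ ε m C ψ ≤ normSqSum ψ := by
  have hξ := gr_xi_le τ ε C hε ψ
  have hf : normSqSum (oneQubitLayer (mR τ m C) (xiVec τ ε C ψ))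
      ≤ normSqSum (xiVec τ ε C ψ) :=
    normSqSum_oneQubitLayer_le _ (gr_mR_contr τ m C hm) _
  refine ⟨?_, ?_, ?_⟩
  · unfold sc_psd
    refine ⟨gd_normSqSum_nonneg _, gd_normSqSum_nonneg _, ?_⟩
    unfold gramQ gramX gramZ
    have h := norm_ip_le (oneQubitLayer (mR τ m C) (xiVec τ ε C ψ))
      (oneQubitLayer (mP τ m C) (xiVec τ ε C ψ))
    rw [Complex.normSq_eq_norm_sq]
    have h2 := pow_le_pow_left₀ (norm_nonneg _) h 2
    rw [mul_pow, Real.sq_sqrt (gd_normSqSum_nonneg _), Real.sq_sqrt (gd_normSqSum_nonneg _)]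
      at h2
    exact h2
  · unfold gramX
    exact hf.trans hξ
  · unfold gramX gramQ gramZ
    rw [← gr_nsq_sub]
    have hg : oneQubitLayer (mP τ m C) (xiVec τ ε C ψ) =
        oneQubitLayer (mR τ m C)
          (oneQubitLayer (gp_P (C.filter fun p => τ p = false)) (xiVec τ ε C ψ)) := by
      rw [oneQubitLayer_comp, gr_mP_eq]
    rw [hg, ← gp_layer_sub, ← gp_cz_eq]
    refine (normSqSum_oneQubitLayer_le _ (gr_mR_contr τ m C hm) _).trans ?_
    rw [normSqSum_czLayer]
    exact hξ

end Vale.Agent.Lib.P368
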