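import Vale.Agent.Lib.P368.AdvS.PosS

/-!
# P368, ancilla preprocessing with the sharp exponent: the bound on the signed form through one
layer of gates
-/

namespace Vale.Agent.Lib.P368

open Finset

variable {Q : Type} [Fintype Q] [DecidableEq Q]

/-- The cap of a gate is at most `(sqrt 2)^k`. -/
theorem ks_cap (k : ℕ) : gateCap k ≤ Real.sqrt 2 ^ k := by
  have h1 : (1 : ℝ) ≤ Real.sqrt 2 := by
    calc (1 : ℝ) = Real.sqrt 1 := Real.sqrt_one.symm
      _ ≤ Real.sqrt 2 := Real.sqrt_le_sqrt (by norm_num)
  unfold gateCap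
  split_ifs with h
  · exact one_le_pow₀ h1
  · have h2 : (2 : ℝ) = Real.sqrt 2 ^ 2 := (Real.sq_sqrt (by norm_num)).symm
    calc (2 : ℝ) = Real.sqrt 2 ^ 2 := h2
      _ ≤ Real.sqrt 2 ^ k := pow_le_pow_right₀ h1 (by omega)

omit [Fintype Q] [DecidableEq Q] in
/-- The observables `m† m` are positive. -/
theorem ks_pos (m : Q → Matrix Bool Bool ℂ)
    (hm : ∀ p, IsRow (m p) ∨ m p ∈ Matrix.unitaryGroup Bool ℂ) (p : Q) :
    IsPos ((m p).conjTranspose * m p) := by
  rcases hm p with h | h
  · exact ⟨m p, isContr_of_isRow _ h, rfl⟩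
  · exact ⟨m p, isContr_of_unitary _ h, rfl⟩

omit [Fintype Q] [DecidableEq Q] in
/-- The transferred matrix of admissible data at a positive observable is a contraction. -/
theorem ks_contr (τ : Q → Bool) (ε : Q → Bool → Matrix Bool Bool ℂ) (O : Q → Matrix Bool Bool ℂ)
    (hadm : Adm τ ε) (hO : ∀ p, IsPos (O p)) (p : Q) :
    IsContr (tMat (τ p) (ε p) (O p)) := by
  rcases hτ : τ p with _ | _
  · exact isContr_tMat_false (ε p) (O p) ((hadm p).2 hτ) (isContr_of_isPos _ (hO p))
  · obtain ⟨u, hu, hε⟩ := (hadm p).1 hτ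
    have hεu : ε p = colMat u := funext hε
    rw [hεu]
    exact isContr_tMat_true_pos u hu (O p) (hO p)

/-- The norm of the gate operator, with the constant `(sqrt 2)^k`. -/
theorem ks_gOp_sqrt (τ : Q → Bool) (ε : Q → Bool → Matrix Bool Bool ℂ)
    (m : Q → Matrix Bool Bool ℂ) (C : Finset Q) (hadm : Adm τ ε)
    (hm : ∀ p, IsRow (m p) ∨ m p ∈ Matrix.unitaryGroup Bool ℂ) (ψ : StateVec Q) :
    Real.sqrt (normSqSum (gOp τ ε (fun p => (m p).conjTranspose * m p) C ψ)) ≤
      Real.sqrt 2 ^ (C.filter fun p => τ p = true).card * Real.sqrt (normSqSum ψ) := by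
  have hb := gOp_norm_sharp τ ε m C hadm hm ψ
  have hc0 := gateCap_nonneg (C.filter fun p => τ p = true).card
  have hs : Real.sqrt (normSqSum (gOp τ ε (fun p => (m p).conjTranspose * m p) C ψ)) ≤
      gateCap (C.filter fun p => τ p = true).card * Real.sqrt (normSqSum ψ) := by
    calc Real.sqrt (normSqSum (gOp τ ε (fun p => (m p).conjTranspose * m p) C ψ))
        ≤ Real.sqrt ((gateCap (C.filter fun p => τ p = true).card) ^ 2 * normSqSum ψ) :=
          Real.sqrt_le_sqrt hb
      _ = gateCap (C.filter fun p => τ p = true).card * Real.sqrt (normSqSum ψ) := by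
          rw [Real.sqrt_mul (sq_nonneg _), Real.sqrt_sq hc0]
  exact hs.trans (mul_le_mul_of_nonneg_right (ks_cap _) (Real.sqrt_nonneg _))

/-- The flagged qubits split into those outside `C` and those of `C`. -/
theorem ks_card (τ : Q → Bool) (C : Finset Q) :
    (univ.filter fun p => (if p ∈ C then false else τ p) = true).card +
      (C.filter fun p => τ p = true).card = (univ.filter fun p => τ p = true).card := by
  have h1 : (univ.filter fun p => (if p ∈ C then false else τ p) = true) =
      (univ.filter fun p => τ p = true).filter (fun p => ¬ p ∈ C) := by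
    ext p
    by_cases hp : p ∈ C <;> simp [hp]
  have h2 : (C.filter fun p => τ p = true) =
      (univ.filter fun p => τ p = true).filter (fun p => p ∈ C) := by
    ext p
    simp [and_comm]
  rw [h1, h2, add_comm]
  exact Finset.card_filter_add_card_filter_not (fun p => p ∈ C)

/-- The signed form through a layer of multi-controlled `Z` gates with pairwise disjoint
supports, for matrices `m p` that are unitary or have a single row of norm at most one, is
bounded by `(sqrt 2)^k` times the norms of the two vectors, `k` the number of flagged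
qubits. -/
theorem sForm_bound_sharp (L : Finset (Finset Q))
    (hL : (L : Set (Finset Q)).PairwiseDisjoint id)
    (τ : Q → Bool) (ε : Q → Bool → Matrix Bool Bool ℂ) (m : Q → Matrix Bool Bool ℂ)
    (hadm : Adm τ ε) (hm : ∀ p, IsRow (m p) ∨ m p ∈ Matrix.unitaryGroup Bool ℂ)
    (φ ψ : StateVec Q) :
    ‖sForm τ ε L (fun p => (m p).conjTranspose * m p) φ ψ‖ ≤
      Real.sqrt 2 ^ (univ.filter fun p => τ p = true).card *
        (Real.sqrt (normSqSum φ) * Real.sqrt (normSqSum ψ)) := by
  have hs1 : (1 : ℝ) ≤ Real.sqrt 2 := by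
    calc (1 : ℝ) = Real.sqrt 1 := Real.sqrt_one.symm
      _ ≤ Real.sqrt 2 := Real.sqrt_le_sqrt (by norm_num)
  revert hL τ ε m hadm hm φ ψ
  induction L using Finset.induction_on with
  | empty =>
    intro _ τ ε m hadm hm φ ψ
    rw [sForm_empty]
    have hO := ks_pos m hm
    have h1 := norm_ip_le φ
      (oneQubitLayer (fun p => tMat (τ p) (ε p) ((m p).conjTranspose * m p)) ψ)
    have h2 : normSqSum (oneQubitLayer
        (fun p => tMat (τ p) (ε p) ((m p).conjTranspose * m p)) ψ) ≤ normSqSum ψ :=
      normSqSum_oneQubitLayer_le _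
        (fun p => ks_contr τ ε (fun p => (m p).conjTranspose * m p) hadm hO p) ψ
    have h3 : Real.sqrt (normSqSum (oneQubitLayer
        (fun p => tMat (τ p) (ε p) ((m p).conjTranspose * m p)) ψ)) ≤
        Real.sqrt (normSqSum ψ) := Real.sqrt_le_sqrt h2
    have h4 : (1 : ℝ) ≤ Real.sqrt 2 ^ (univ.filter fun p => τ p = true).card :=
      one_le_pow₀ hs1
    have h5 : 0 ≤ Real.sqrt (normSqSum φ) * Real.sqrt (normSqSum ψ) :=
      mul_nonneg (Real.sqrt_nonneg _) (Real.sqrt_nonneg _)
    calc ‖ip φ (oneQubitLayer (fun p => tMat (τ p) (ε p) ((m p).conjTranspose * m p)) ψ)‖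
        ≤ Real.sqrt (normSqSum φ) * Real.sqrt (normSqSum (oneQubitLayer
            (fun p => tMat (τ p) (ε p) ((m p).conjTranspose * m p)) ψ)) := h1
      _ ≤ Real.sqrt (normSqSum φ) * Real.sqrt (normSqSum ψ) :=
          mul_le_mul_of_nonneg_left h3 (Real.sqrt_nonneg _)
      _ = 1 * (Real.sqrt (normSqSum φ) * Real.sqrt (normSqSum ψ)) := (one_mul _).symm
      _ ≤ Real.sqrt 2 ^ (univ.filter fun p => τ p = true).card *
          (Real.sqrt (normSqSum φ) * Real.sqrt (normSqSum ψ)) :=
          mul_le_mul_of_nonneg_right h4 h5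
  | insert C L' hC ih =>
    intro hL τ ε m hadm hm φ ψ
    have hL' : (L' : Set (Finset Q)).PairwiseDisjoint id :=
      Set.PairwiseDisjoint.subset hL (Finset.coe_subset.mpr (Finset.subset_insert _ _))
    have hdisj : ∀ S ∈ L', Disjoint S C := by
      intro S hS
      have h := hL (Finset.mem_coe.mpr (Finset.mem_insert_of_mem hS))
        (Finset.mem_coe.mpr (Finset.mem_insert_self _ _)) (ne_of_mem_of_not_mem hS hC)
      simpa [Function.onFun] using h
    have hOeq : (fun p => if p ∈ C then (1 : Matrix Bool Bool ℂ)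
          else (fun p => (m p).conjTranspose * m p) p)
        = (fun p => ((fun p => if p ∈ C then (1 : Matrix Bool Bool ℂ) else m p) p).conjTranspose
            * (fun p => if p ∈ C then (1 : Matrix Bool Bool ℂ) else m p) p) := by
      funext p
      by_cases hp : p ∈ C <;> simp [hp]
    have hpeel := sForm_peel τ ε L' (fun p => (m p).conjTranspose * m p) C hC hdisj φ ψ
    rw [hOeq] at hpeel
    rw [hpeel]
    have hadm' : Adm (fun p => if p ∈ C then false else τ p)
        (fun p b => if p ∈ C then 1 else ε p b) := by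
      intro p
      by_cases hp : p ∈ C
      · refine ⟨fun h => ?_, fun _ => ?_⟩
        · simp [hp] at h
        · simp only [hp, if_true]
          exact isContr_one
      · simp only [hp, if_false]
        exact hadm p
    have hm' : ∀ p, IsRow ((fun p => if p ∈ C then (1 : Matrix Bool Bool ℂ) else m p) p) ∨
        (fun p => if p ∈ C then (1 : Matrix Bool Bool ℂ) else m p) p
          ∈ Matrix.unitaryGroup Bool ℂ := by
      intro p
      by_cases hp : p ∈ C
      · right
        simp only [hp, if_true]
        exact one_mem _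
      · simp only [hp, if_false]
        exact hm p
    have hih := ih hL' (fun p => if p ∈ C then false else τ p)
      (fun p b => if p ∈ C then 1 else ε p b)
      (fun p => if p ∈ C then (1 : Matrix Bool Bool ℂ) else m p) hadm' hm' φ
      (gOp τ ε (fun p => (m p).conjTranspose * m p) C ψ)
    have hg := ks_gOp_sqrt τ ε m C hadm hm ψ
    have hcard := ks_card τ C
    have hk0 : (0 : ℝ) ≤
        Real.sqrt 2 ^ (univ.filter fun p => (if p ∈ C then false else τ p) = true).card := by
      positivity
    refine hih.trans ?_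
    refine (mul_le_mul_of_nonneg_left
      (mul_le_mul_of_nonneg_left hg (Real.sqrt_nonneg _)) hk0).trans (le_of_eq ?_)
    rw [← hcard, pow_add]
    ring

end Vale.Agent.Lib.P368
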