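import Vale.Agent.Lib.P368.AdvS.TwoS

/-!
# P368, ancilla preprocessing with the sharp exponent: the signed sum of the outcome
probabilities
-/

namespace Vale.Agent.Lib.P368

open Finset

variable {Q : Type} [Fintype Q] [DecidableEq Q]

/-- A circuit `pre ++ suf` in which the generalized Toffoli gates of `pre` do not touch the
input qubits and `suf` has entangling depth at most two: the signed sum over all inputs of the
probability of the outcome `b` on qubit `q` is at most `3 (sqrt 2)^n`. -/
theorem t_signed_sum_advice_sharp {n : ℕ} (inp : Fin n ↪ Q) (pre suf : List (List (TGate Q)))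
    (hvp : ∀ l ∈ pre, LayerValid l) (hvs : ∀ l ∈ suf, LayerValid l)
    (hoff : ∀ l ∈ pre, ∀ g ∈ l, g.isRight = true → ∀ j, inp j ∉ g.support)
    (hd : entDepth suf ≤ 2) (q : Q) (b : Bool) :
    |∑ x : Fin n → Bool, sgn x * tOutProb (pre ++ suf) inp q x b| ≤ 3 * Real.sqrt 2 ^ n := by
  obtain ⟨w, Φ, hw, hΦ, hpre⟩ := tRun_pre_form inp pre hvp hoff
  obtain ⟨pr, last, hlen, _, hpr, hlast, hrun⟩ := tRun_normal_form suf hvs
  obtain ⟨first, v, L1, L2, hfirst, hv', hL1, hL2, hform⟩ :=
    preRun_le_two pr last (hlen.trans_le hd) hpr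
  have happ : ∀ ψ : StateVec Q, tRun (pre ++ suf) ψ = tRun suf (tRun pre ψ) := by
    intro ψ
    unfold tRun
    rw [List.foldl_append]
  unfold tOutProb
  simp only [happ, hpre, hrun, hform]
  exact advice_signed_sum_two_sharp inp first v last w L1 L2 Φ hfirst hv' hlast hw hL1 hL2 hΦ
    q b

end Vale.Agent.Lib.P368
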