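import Vale.Agent.Lib.P368.AdvS.QuadS

/-!
# P368, ancilla preprocessing with the sharp exponent: the norm of the operator of a gate
-/

namespace Vale.Agent.Lib.P368

open Finset

variable {Q : Type} [Fintype Q] [DecidableEq Q]

theorem gateCap_nonneg (k : ℕ) : 0 ≤ gateCap k := by
  unfold gateCap
  split_ifs <;> norm_num

theorem gOp_norm_sharp (τ : Q → Bool) (ε : Q → Bool → Matrix Bool Bool ℂ)
    (m : Q → Matrix Bool Bool ℂ) (C : Finset Q) (hadm : Adm τ ε)
    (hm : ∀ p, IsRow (m p) ∨ m p ∈ Matrix.unitaryGroup Bool ℂ) (ψ : StateVec Q) :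
    normSqSum (gOp τ ε (fun p => (m p).conjTranspose * m p) C ψ) ≤
      (gateCap (C.filter fun p => τ p = true).card) ^ 2 * normSqSum ψ := by
  have hO : ∀ p, ((m p).conjTranspose * m p).conjTranspose = (m p).conjTranspose * m p := by
    intro p
    rw [Matrix.conjTranspose_mul, Matrix.conjTranspose_conjTranspose]
  exact polar_bound (gOp τ ε (fun p => (m p).conjTranspose * m p) C) _ (gateCap_nonneg _)
    (gOp_add τ ε _ C) (gOp_smul τ ε _ C) (gOp_herm τ ε _ C hO)
    (gOp_quad_sharp τ ε m C hadm hm) ψ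

end Vale.Agent.Lib.P368
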