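import Vale.Agent.Lib.P368.AdvS.Defs

/-!
# P368, ancilla preprocessing with the sharp exponent: scalars pulled out of a layer
-/

namespace Vale.Agent.Lib.P368

open Finset

variable {Q : Type} [Fintype Q] [DecidableEq Q]

/-- The transferred matrix of an unflagged qubit. -/
theorem pu_tMat_false (e : Bool → Matrix Bool Bool ℂ) (X : Matrix Bool Bool ℂ) :
    tMat false e X = (e false).conjTranspose * X * e false := by
  unfold tMat
  rw [Fintype.sum_bool]
  simp [wt]

/-- If the transferred matrix of every flagged qubit `p` of `C` is `k p` times the projector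
onto `0`, the layer of the transferred matrices on `C` is the product of the scalars times the
layer with the projector onto `0` on the flagged qubits of `C` and the conjugated matrices on
the other qubits of `C`. -/
theorem layer_tMat_eq (τ : Q → Bool) (ε : Q → Bool → Matrix Bool Bool ℂ)
    (X : Q → Matrix Bool Bool ℂ) (C : Finset Q) (k : Q → ℂ)
    (hk : ∀ p ∈ C, τ p = true → tMat (τ p) (ε p) (X p) = k p • e00) (ψ : StateVec Q) :
    oneQubitLayer (fun p => if p ∈ C then tMat (τ p) (ε p) (X p) else 1) ψ =
      fun z => (∏ p ∈ C.filter (fun p => τ p = true), k p) *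
        oneQubitLayer (fun p => if p ∈ C then (if τ p = true then e00 else
          (ε p false).conjTranspose * X p * ε p false) else 1) ψ z := by
  have hM : ∀ p, (if p ∈ C then tMat (τ p) (ε p) (X p) else 1) =
      (if p ∈ C ∧ τ p = true then k p else 1) •
        (if p ∈ C then (if τ p = true then e00 else
          (ε p false).conjTranspose * X p * ε p false) else (1 : Matrix Bool Bool ℂ)) := by
    intro p
    by_cases hp : p ∈ C
    · by_cases ht : τ p = true
      · rw [if_pos hp, if_pos (And.intro hp ht), if_pos hp, if_pos ht]
        exact hk p hp ht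
      · have hf : τ p = false := by simpa using ht
        rw [if_pos hp, if_neg (fun h => ht h.2), if_pos hp, if_neg ht, one_smul, hf,
          pu_tMat_false]
    · rw [if_neg hp, if_neg (fun h => hp h.1), if_neg hp, one_smul]
  have hc : (∏ p, (if p ∈ C ∧ τ p = true then k p else 1))
      = ∏ p ∈ C.filter (fun p => τ p = true), k p := by
    rw [← Finset.prod_filter]
    congr 1
    ext p
    simp
  funext z
  rw [oneQubitLayer_apply, oneQubitLayer_apply, Finset.mul_sum, ← hc]
  refine Finset.sum_congr rfl fun w _ => ?_
  have hprod : (∏ p, (if p ∈ C then tMat (τ p) (ε p) (X p) else 1) (z p) (w p)) =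
      (∏ p, (if p ∈ C ∧ τ p = true then k p else 1)) *
        ∏ p, (if p ∈ C then (if τ p = true then e00 else
          (ε p false).conjTranspose * X p * ε p false) else (1 : Matrix Bool Bool ℂ))
            (z p) (w p) := by
    rw [← Finset.prod_mul_distrib]
    refine Finset.prod_congr rfl fun p _ => ?_
    rw [hM p, Matrix.smul_apply, smul_eq_mul]
  rw [hprod, mul_assoc]

end Vale.Agent.Lib.P368
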