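import Vale.Agent.Lib.P368.AdvS.Bridge
import Vale.Agent.Lib.P368.AdvS.Pull

/-!
# P368, ancilla preprocessing with the sharp exponent: the quadratic form of the operator of a
gate in terms of the one-qubit sums of its input qubits and the Gram data of the rest
-/

namespace Vale.Agent.Lib.P368

open Finset

variable {Q : Type} [Fintype Q] [DecidableEq Q]

/-- The projector onto `0` is self-adjoint. -/
theorem qf_e00_conjTranspose : (e00 : Matrix Bool Bool ℂ).conjTranspose = e00 := by
  ext i j
  cases i <;> cases j <;> simp [e00, Matrix.conjTranspose_apply]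

/-- The projector onto `0` is idempotent. -/
theorem qf_e00_mul : (e00 : Matrix Bool Bool ℂ) * e00 = e00 := by
  ext i j
  cases i <;> cases j <;> simp [e00, Matrix.mul_apply]

/-- The pairing is linear in the four terms of the operator of a gate. -/
theorem qf_ip_gOp (τ : Q → Bool) (ε : Q → Bool → Matrix Bool Bool ℂ)
    (O : Q → Matrix Bool Bool ℂ) (C : Finset Q) (ψ : StateVec Q) :
    ip ψ (gOp τ ε O C ψ) =
      ip ψ (oneQubitLayer (fun p => if p ∈ C then tMat (τ p) (ε p) (O p) else 1) ψ)
        - 2 * ip ψ (oneQubitLayer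
            (fun p => if p ∈ C then tMat (τ p) (ε p) (projOne * O p) else 1) ψ)
        - 2 * ip ψ (oneQubitLayer
            (fun p => if p ∈ C then tMat (τ p) (ε p) (O p * projOne) else 1) ψ)
        + 4 * ip ψ (oneQubitLayer
            (fun p => if p ∈ C then tMat (τ p) (ε p) (projOne * O p * projOne) else 1) ψ) := by
  unfold ip gOp
  simp only [Finset.mul_sum, ← Finset.sum_sub_distrib, ← Finset.sum_add_distrib]
  refine Finset.sum_congr rfl fun z _ => ?_
  ring

/-- One term: the scalars of the flagged qubits come out, the rest is an expectation in the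
vector `xiVec`. -/
theorem qf_term (τ : Q → Bool) (ε : Q → Bool → Matrix Bool Bool ℂ)
    (X : Q → Matrix Bool Bool ℂ) (C : Finset Q) (k : Q → ℂ)
    (hk : ∀ p ∈ C, τ p = true → tMat (τ p) (ε p) (X p) = k p • e00) (ψ : StateVec Q) :
    ip ψ (oneQubitLayer (fun p => if p ∈ C then tMat (τ p) (ε p) (X p) else 1) ψ) =
      (∏ p ∈ C.filter (fun p => τ p = true), k p) *
        expVal (fun p => if p ∈ C ∧ τ p = false then X p else 1) (xiVec τ ε C ψ) := by
  rw [layer_tMat_eq τ ε X C k hk ψ]
  have hN : (fun p => if p ∈ C then (if τ p = true then e00 else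
      (ε p false).conjTranspose * X p * ε p false) else (1 : Matrix Bool Bool ℂ)) =
      fun p => (if p ∈ C then (if τ p = true then e00 else ε p false)
        else (1 : Matrix Bool Bool ℂ)).conjTranspose *
        (if p ∈ C ∧ τ p = false then X p else 1) *
        (if p ∈ C then (if τ p = true then e00 else ε p false) else 1) := by
    funext p
    by_cases hp : p ∈ C
    · by_cases ht : τ p = true
      · simp only [hp, ht, if_true, true_and, Bool.true_eq_false, if_false]
        rw [qf_e00_conjTranspose, Matrix.mul_one, qf_e00_mul]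
      · have ht' : τ p = false := by simpa using ht
        simp only [hp, ht', if_true, true_and, Bool.false_eq_true, if_false]
    · simp only [hp, if_false, false_and]
      rw [Matrix.conjTranspose_one, Matrix.mul_one, Matrix.mul_one]
  unfold xiVec
  rw [expVal_layer, ← hN]
  unfold expVal ip
  rw [Finset.mul_sum]
  refine Finset.sum_congr rfl fun z _ => ?_
  ring

/-- The pairing is conjugate symmetric. -/
theorem qf_ip_conj (φ ψ : StateVec Q) : ip φ ψ = (starRingEnd ℂ) (ip ψ φ) := by
  unfold ip
  rw [map_sum]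
  refine Finset.sum_congr rfl fun z _ => ?_
  rw [map_mul, Complex.conj_conj, mul_comm]

theorem gOp_quad_formula (τ : Q → Bool) (ε : Q → Bool → Matrix Bool Bool ℂ)
    (u m : Q → Matrix Bool Bool ℂ) (C : Finset Q)
    (hε : ∀ p ∈ C, τ p = true → ε p = colMat (u p)) (ψ : StateVec Q) :
    ip ψ (gOp τ ε (fun p => (m p).conjTranspose * m p) C ψ) =
      (∏ p ∈ C.filter (fun p => τ p = true), K0 (kap true (m p) (u p))) *
          ((gramX τ ε m C ψ : ℝ) : ℂ)
        - 2 * (∏ p ∈ C.filter (fun p => τ p = true), K2 (kap true (m p) (u p))) *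
          (starRingEnd ℂ) (gramQ τ ε m C ψ)
        - 2 * (∏ p ∈ C.filter (fun p => τ p = true), K1 (kap true (m p) (u p))) *
          gramQ τ ε m C ψ
        + 4 * (∏ p ∈ C.filter (fun p => τ p = true), K3 (kap true (m p) (u p))) *
          ((gramZ τ ε m C ψ : ℝ) : ℂ) := by
  have h1 := qf_term τ ε (fun p => (m p).conjTranspose * m p) C
    (fun p => K0 (kap true (m p) (u p)))
    (fun p hp ht => by rw [ht, hε p hp ht]; exact (tMat_true_colMat (u p) (m p)).1) ψ
  have h2 := qf_term τ ε (fun p => projOne * ((m p).conjTranspose * m p)) C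
    (fun p => K2 (kap true (m p) (u p)))
    (fun p hp ht => by rw [ht, hε p hp ht]; exact (tMat_true_colMat (u p) (m p)).2.1) ψ
  have h3 := qf_term τ ε (fun p => (m p).conjTranspose * m p * projOne) C
    (fun p => K1 (kap true (m p) (u p)))
    (fun p hp ht => by rw [ht, hε p hp ht]; exact (tMat_true_colMat (u p) (m p)).2.2.1) ψ
  have h4 := qf_term τ ε (fun p => projOne * ((m p).conjTranspose * m p) * projOne) C
    (fun p => K3 (kap true (m p) (u p)))
    (fun p hp ht => by rw [ht, hε p hp ht]; exact (tMat_true_colMat (u p) (m p)).2.2.2) ψ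
  have y1 : (fun p => if p ∈ C ∧ τ p = false then (m p).conjTranspose * m p
      else (1 : Matrix Bool Bool ℂ)) =
      fun p => (mR τ m C p).conjTranspose * mR τ m C p := by
    funext p
    unfold mR
    split_ifs
    · rfl
    · rw [Matrix.conjTranspose_one, Matrix.mul_one]
  have y2 : (fun p => if p ∈ C ∧ τ p = false then projOne * ((m p).conjTranspose * m p)
      else (1 : Matrix Bool Bool ℂ)) =
      fun p => (mP τ m C p).conjTranspose * mR τ m C p := by
    funext p
    unfold mP mR
    split_ifs
    · rw [Matrix.conjTranspose_mul, gp_projOne_conjTranspose, Matrix.mul_assoc]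
    · rw [Matrix.conjTranspose_one, Matrix.mul_one]
  have y3 : (fun p => if p ∈ C ∧ τ p = false then (m p).conjTranspose * m p * projOne
      else (1 : Matrix Bool Bool ℂ)) =
      fun p => (mR τ m C p).conjTranspose * mP τ m C p := by
    funext p
    unfold mP mR
    split_ifs
    · rw [Matrix.mul_assoc]
    · rw [Matrix.conjTranspose_one, Matrix.mul_one]
  have y4 : (fun p => if p ∈ C ∧ τ p = false then
      projOne * ((m p).conjTranspose * m p) * projOne else (1 : Matrix Bool Bool ℂ)) =
      fun p => (mP τ m C p).conjTranspose * mP τ m C p := by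
    funext p
    unfold mP
    split_ifs
    · rw [Matrix.conjTranspose_mul, gp_projOne_conjTranspose, Matrix.mul_assoc,
        Matrix.mul_assoc, Matrix.mul_assoc]
    · rw [Matrix.conjTranspose_one, Matrix.mul_one]
  rw [y1, expVal_eq_ip] at h1
  rw [y2, expVal_eq_ip] at h2
  rw [y3, expVal_eq_ip] at h3
  rw [y4, expVal_eq_ip] at h4
  have gx : ((gramX τ ε m C ψ : ℝ) : ℂ) =
      ip (oneQubitLayer (mR τ m C) (xiVec τ ε C ψ))
        (oneQubitLayer (mR τ m C) (xiVec τ ε C ψ)) := by
    unfold gramX
    rw [normSqSum_cast]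
    rfl
  have gz : ((gramZ τ ε m C ψ : ℝ) : ℂ) =
      ip (oneQubitLayer (mP τ m C) (xiVec τ ε C ψ))
        (oneQubitLayer (mP τ m C) (xiVec τ ε C ψ)) := by
    unfold gramZ
    rw [normSqSum_cast]
    rfl
  have gq : (starRingEnd ℂ) (gramQ τ ε m C ψ) =
      ip (oneQubitLayer (mP τ m C) (xiVec τ ε C ψ))
        (oneQubitLayer (mR τ m C) (xiVec τ ε C ψ)) := by
    unfold gramQ
    exact (qf_ip_conj _ _).symm
  rw [qf_ip_gOp, h1, h2, h3, h4, gx, gz, gq]
  unfold gramQ
  ring

end Vale.Agent.Lib.P368
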