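import Vale.Agent.Lib.P368.AdvS.Defs

/-!
# P368, ancilla preprocessing with the sharp exponent: the scalar inequality for one gate
-/

namespace Vale.Agent.Lib.P368

open Finset

/-- The real part of the combination. -/
theorem pf_re (Ar Cr D x z : ℝ) (ν B q : ℂ) :
    (((Ar : ℂ) * ν) * (x : ℂ) - 2 * ((starRingEnd ℂ) B * (D : ℂ)) * (starRingEnd ℂ) q
        - 2 * (B * (D : ℂ)) * q + 4 * ((Cr : ℂ) * (D : ℂ)) * (z : ℂ)).re
      = Ar * x * ν.re - 4 * D * (B * q).re + 4 * Cr * D * z := by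
  simp only [Complex.sub_re, Complex.add_re, Complex.mul_re, Complex.mul_im, Complex.ofReal_re,
    Complex.ofReal_im, Complex.conj_re, Complex.conj_im, Complex.re_ofNat, Complex.im_ofNat]
  ring

/-- The two basic bounds for the product data of the row qubits. -/
theorem pf_core (Ar Cr Pr Sr x z N : ℝ) (B q : ℂ)
    (Tp : sc_psd (Pr + Ar) (Sr + Cr) ((Sr : ℂ) + B))
    (Tm : sc_psd (Pr - Ar) (Sr - Cr) ((Sr : ℂ) - B))
    (hP1 : Pr ≤ 1)
    (hpsd : sc_psd x z q) (hx : x ≤ N) (hcz : x - 4 * q.re + 4 * z ≤ N) :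
    |Ar * x - 4 * (B * q).re + 4 * Cr * z| ≤ N ∧ |Ar * x| ≤ N := by
  have hx0 : 0 ≤ x := hpsd.1
  have hN : 0 ≤ N := hx0.trans hx
  have hPA1 : 0 ≤ Pr + Ar := Tp.1
  have hPA2 : 0 ≤ Pr - Ar := Tm.1
  have hS1 : 0 ≤ Sr + Cr := Tp.2.1
  have hS2 : 0 ≤ Sr - Cr := Tm.2.1
  have hS0 : 0 ≤ Sr := by linarith
  have hP0 : 0 ≤ Pr := by linarith
  have hSP : Sr ≤ Pr := by
    have h := (sc_add Tp Tm).2.2
    have e : ((Sr : ℂ) + B) + ((Sr : ℂ) - B) = ((2 * Sr : ℝ) : ℂ) := by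
      push_cast
      ring
    rw [e, Complex.normSq_ofReal] at h
    by_contra hcon
    push Not at hcon
    nlinarith [mul_pos (sub_pos.mpr hcon) (lt_of_le_of_lt hP0 hcon)]
  have f1 := sc_form (sc_mul Tp hpsd)
  have f2 := sc_form (sc_mul Tm hpsd)
  have r1 : (((Sr : ℂ) + B) * q).re = Sr * q.re + (B * q).re := by
    rw [add_mul, Complex.add_re, Complex.re_ofReal_mul]
  have r2 : (((Sr : ℂ) - B) * q).re = Sr * q.re - (B * q).re := by
    rw [sub_mul, Complex.sub_re, Complex.re_ofReal_mul]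
  rw [r1] at f1
  rw [r2] at f2
  have hW : Pr * x - 4 * Sr * q.re + 4 * Sr * z ≤ N := by
    have h1 : (Pr - Sr) * x ≤ (Pr - Sr) * N := mul_le_mul_of_nonneg_left hx (by linarith)
    have h2 : Sr * (x - 4 * q.re + 4 * z) ≤ Sr * N := mul_le_mul_of_nonneg_left hcz hS0
    have h3 : Pr * N ≤ 1 * N := mul_le_mul_of_nonneg_right hP1 hN
    nlinarith
  have p1 : 0 ≤ (Pr - Ar) * x := mul_nonneg hPA2 hx0
  have p2 : 0 ≤ (Pr + Ar) * x := mul_nonneg hPA1 hx0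
  have p3 : 0 ≤ (1 - Pr) * x := mul_nonneg (sub_nonneg.mpr hP1) hx0
  constructor
  · rw [abs_le]
    constructor
    · nlinarith
    · nlinarith
  · rw [abs_le]
    constructor
    · nlinarith
    · nlinarith

/-- The contribution of one gate.  The input qubits `I` of the gate are of two kinds: for the
qubits with `row p` the four sums `k0 .. k3` have the positive semidefinite structure of a
matrix with a single row, for the others they are `0, d, d, d` with `|d| ≤ 1`.  The rest of the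
gate enters through Gram data `x, z, q` bounded by `N`.  The real part of the combination is at
most `N` in modulus if there is at most one input qubit, and at most `2 N` in general. -/
theorem sharp_gate_bound {ι : Type} (I : Finset ι) (row : ι → Prop) [DecidablePred row]
    (k0 k1 k2 k3 : ι → ℂ)
    (hrow : ∀ p ∈ I, row p → ∃ (a c ρ s : ℝ) (β : ℂ), k0 p = (a : ℂ) ∧ k1 p = β ∧
      k2 p = (starRingEnd ℂ) β ∧ k3 p = (c : ℂ) ∧ ρ ≤ 1 ∧
      (0 ≤ ρ + a ∧ 0 ≤ ρ - a ∧ 0 ≤ s + c ∧ 0 ≤ s - c ∧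
        Complex.normSq ((s : ℂ) + β) ≤ (ρ + a) * (s + c) ∧
        Complex.normSq ((s : ℂ) - β) ≤ (ρ - a) * (s - c)))
    (huni : ∀ p ∈ I, ¬ row p → ∃ d : ℝ, k0 p = 0 ∧ k1 p = (d : ℂ) ∧ k2 p = (d : ℂ) ∧
      k3 p = (d : ℂ) ∧ |d| ≤ 1)
    (x z N : ℝ) (q : ℂ) (hpsd : sc_psd x z q) (hx : x ≤ N)
    (hcz : x - 4 * q.re + 4 * z ≤ N) :
    |((∏ p ∈ I, k0 p) * (x : ℂ) - 2 * (∏ p ∈ I, k2 p) * (starRingEnd ℂ) q
        - 2 * (∏ p ∈ I, k1 p) * q + 4 * (∏ p ∈ I, k3 p) * (z : ℂ)).re| ≤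
      gateCap I.card * N := by
  have hr' : ∀ p, ∃ (a c ρ s : ℝ) (β : ℂ), p ∈ I → row p →
      (k0 p = (a : ℂ) ∧ k1 p = β ∧ k2 p = (starRingEnd ℂ) β ∧ k3 p = (c : ℂ) ∧ ρ ≤ 1 ∧
      (0 ≤ ρ + a ∧ 0 ≤ ρ - a ∧ 0 ≤ s + c ∧ 0 ≤ s - c ∧
        Complex.normSq ((s : ℂ) + β) ≤ (ρ + a) * (s + c) ∧
        Complex.normSq ((s : ℂ) - β) ≤ (ρ - a) * (s - c))) := by
    intro p
    by_cases h : p ∈ I ∧ row p
    · obtain ⟨a, c, ρ, s, β, hh⟩ := hrow p h.1 h.2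
      exact ⟨a, c, ρ, s, β, fun _ _ => hh⟩
    · exact ⟨0, 0, 0, 0, 0, fun h1 h2 => absurd ⟨h1, h2⟩ h⟩
  choose a c ρ s β hdata using hr'
  have hu' : ∀ p, ∃ d : ℝ, p ∈ I → ¬ row p →
      (k0 p = 0 ∧ k1 p = (d : ℂ) ∧ k2 p = (d : ℂ) ∧ k3 p = (d : ℂ) ∧ |d| ≤ 1) := by
    intro p
    by_cases h : p ∈ I ∧ ¬ row p
    · obtain ⟨d, hh⟩ := huni p h.1 h.2
      exact ⟨d, fun _ _ => hh⟩
    · exact ⟨0, fun h1 h2 => absurd ⟨h1, h2⟩ h⟩
  choose d hd using hu'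
  obtain ⟨Ir, hIr⟩ : ∃ Ir : Finset ι, Ir = I.filter row := ⟨_, rfl⟩
  obtain ⟨Iu, hIu⟩ : ∃ Iu : Finset ι, Iu = I.filter (fun p => ¬ row p) := ⟨_, rfl⟩
  have hmemr : ∀ p ∈ Ir, p ∈ I ∧ row p := by
    intro p hp
    rw [hIr] at hp
    exact Finset.mem_filter.mp hp
  have hmemu : ∀ p ∈ Iu, p ∈ I ∧ ¬ row p := by
    intro p hp
    rw [hIu] at hp
    exact Finset.mem_filter.mp hp
  have hsplit : ∀ f : ι → ℂ, ∏ p ∈ I, f p = (∏ p ∈ Ir, f p) * ∏ p ∈ Iu, f p := by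
    intro f
    rw [hIr, hIu]
    exact (Finset.prod_filter_mul_prod_filter_not I row f).symm
  have hcardsum : Ir.card + Iu.card = I.card := by
    rw [hIr, hIu]
    exact Finset.card_filter_add_card_filter_not (s := I) row
  have e0r : ∏ p ∈ Ir, k0 p = ((∏ p ∈ Ir, a p : ℝ) : ℂ) := by
    rw [Complex.ofReal_prod]
    exact Finset.prod_congr rfl (fun p hp => (hdata p (hmemr p hp).1 (hmemr p hp).2).1)
  have e1r : ∏ p ∈ Ir, k1 p = ∏ p ∈ Ir, β p :=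
    Finset.prod_congr rfl (fun p hp => (hdata p (hmemr p hp).1 (hmemr p hp).2).2.1)
  have e2r : ∏ p ∈ Ir, k2 p = (starRingEnd ℂ) (∏ p ∈ Ir, β p) := by
    rw [map_prod]
    exact Finset.prod_congr rfl (fun p hp => (hdata p (hmemr p hp).1 (hmemr p hp).2).2.2.1)
  have e3r : ∏ p ∈ Ir, k3 p = ((∏ p ∈ Ir, c p : ℝ) : ℂ) := by
    rw [Complex.ofReal_prod]
    exact Finset.prod_congr rfl (fun p hp => (hdata p (hmemr p hp).1 (hmemr p hp).2).2.2.2.1)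
  have e1u : ∏ p ∈ Iu, k1 p = ((∏ p ∈ Iu, d p : ℝ) : ℂ) := by
    rw [Complex.ofReal_prod]
    exact Finset.prod_congr rfl (fun p hp => (hd p (hmemu p hp).1 (hmemu p hp).2).2.1)
  have e2u : ∏ p ∈ Iu, k2 p = ((∏ p ∈ Iu, d p : ℝ) : ℂ) := by
    rw [Complex.ofReal_prod]
    exact Finset.prod_congr rfl (fun p hp => (hd p (hmemu p hp).1 (hmemu p hp).2).2.2.1)
  have e3u : ∏ p ∈ Iu, k3 p = ((∏ p ∈ Iu, d p : ℝ) : ℂ) := by
    rw [Complex.ofReal_prod]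
    exact Finset.prod_congr rfl (fun p hp => (hd p (hmemu p hp).1 (hmemu p hp).2).2.2.2.1)
  obtain ⟨Tp, Tm⟩ := sc_pair Ir a c ρ s β (fun p hp => by
    obtain ⟨-, -, -, -, -, h1, h2, h3, h4, h5, h6⟩ := hdata p (hmemr p hp).1 (hmemr p hp).2
    exact ⟨⟨h1, h3, h5⟩, ⟨h2, h4, h6⟩⟩)
  have hρ0 : ∀ p ∈ Ir, 0 ≤ ρ p := by
    intro p hp
    obtain ⟨-, -, -, -, -, h1, h2, -⟩ := hdata p (hmemr p hp).1 (hmemr p hp).2
    linarith
  have hρ1 : ∀ p ∈ Ir, ρ p ≤ 1 :=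
    fun p hp => (hdata p (hmemr p hp).1 (hmemr p hp).2).2.2.2.2.1
  have hP1 : ∏ p ∈ Ir, ρ p ≤ 1 := Finset.prod_le_one hρ0 hρ1
  have hd1 : |∏ p ∈ Iu, d p| ≤ 1 := by
    rw [Finset.abs_prod]
    exact Finset.prod_le_one (fun p _ => abs_nonneg _)
      (fun p hp => (hd p (hmemu p hp).1 (hmemu p hp).2).2.2.2.2)
  have hN : 0 ≤ N := hpsd.1.trans hx
  have hcap1 : 1 ≤ gateCap I.card := by
    unfold gateCap
    split_ifs <;> norm_num
  have hE := pf_re (∏ p ∈ Ir, a p) (∏ p ∈ Ir, c p) (∏ p ∈ Iu, d p) x z (∏ p ∈ Iu, k0 p)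
    (∏ p ∈ Ir, β p) q
  rw [hsplit k0, hsplit k1, hsplit k2, hsplit k3, e0r, e1r, e2r, e3r, e1u, e2u, e3u, hE]
  rcases Finset.eq_empty_or_nonempty Iu with h0 | hne
  · obtain ⟨hg, -⟩ := pf_core (∏ p ∈ Ir, a p) (∏ p ∈ Ir, c p) (∏ p ∈ Ir, ρ p) (∏ p ∈ Ir, s p)
      x z N (∏ p ∈ Ir, β p) q Tp Tm hP1 hpsd hx hcz
    rw [h0, Finset.prod_empty, Finset.prod_empty, Complex.one_re]
    have e : (∏ p ∈ Ir, a p) * x * 1 - 4 * 1 * ((∏ p ∈ Ir, β p) * q).re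
        + 4 * (∏ p ∈ Ir, c p) * 1 * z
        = (∏ p ∈ Ir, a p) * x - 4 * ((∏ p ∈ Ir, β p) * q).re + 4 * (∏ p ∈ Ir, c p) * z := by
      ring
    rw [e]
    exact hg.trans (le_mul_of_one_le_left hN hcap1)
  · have hν : ∏ p ∈ Iu, k0 p = 0 := by
      obtain ⟨p, hp⟩ := hne
      exact Finset.prod_eq_zero hp (hd p (hmemu p hp).1 (hmemu p hp).2).1
    rw [hν, Complex.zero_re]
    have hEq : (∏ p ∈ Ir, a p) * x * 0 - 4 * (∏ p ∈ Iu, d p) * ((∏ p ∈ Ir, β p) * q).re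
        + 4 * (∏ p ∈ Ir, c p) * (∏ p ∈ Iu, d p) * z
        = (∏ p ∈ Iu, d p) * (((∏ p ∈ Ir, a p) * x - 4 * ((∏ p ∈ Ir, β p) * q).re
          + 4 * (∏ p ∈ Ir, c p) * z) - (∏ p ∈ Ir, a p) * x) := by
      ring
    rw [hEq, abs_mul]
    have hdiff : |((∏ p ∈ Ir, a p) * x - 4 * ((∏ p ∈ Ir, β p) * q).re
          + 4 * (∏ p ∈ Ir, c p) * z) - (∏ p ∈ Ir, a p) * x| ≤ gateCap I.card * N := by
      by_cases hcard : I.card ≤ 1
      · have hIr0 : Ir = ∅ := by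
          have hpos : 0 < Iu.card := Finset.card_pos.mpr hne
          exact Finset.card_eq_zero.mp (by omega)
        have hcap : gateCap I.card = 1 := by
          unfold gateCap
          rw [if_pos hcard]
        rw [hIr0, Finset.prod_empty, Finset.prod_empty, Finset.prod_empty, hcap, one_mul,
          one_mul, one_mul, abs_le]
        have hf := sc_form hpsd
        have hx0 : 0 ≤ x := hpsd.1
        constructor
        · linarith
        · linarith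
      · obtain ⟨hg, hax⟩ := pf_core (∏ p ∈ Ir, a p) (∏ p ∈ Ir, c p) (∏ p ∈ Ir, ρ p)
          (∏ p ∈ Ir, s p) x z N (∏ p ∈ Ir, β p) q Tp Tm hP1 hpsd hx hcz
        have hcap : gateCap I.card = 2 := by
          unfold gateCap
          rw [if_neg hcard]
        rw [hcap]
        have h1 := abs_le.mp hg
        have h2 := abs_le.mp hax
        rw [abs_le]
        constructor
        · linarith [h1.1, h2.2]
        · linarith [h1.2, h2.1]
    calc |∏ p ∈ Iu, d p| * |((∏ p ∈ Ir, a p) * x - 4 * ((∏ p ∈ Ir, β p) * q).re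
          + 4 * (∏ p ∈ Ir, c p) * z) - (∏ p ∈ Ir, a p) * x|
        ≤ 1 * (gateCap I.card * N) := mul_le_mul hd1 hdiff (abs_nonneg _) zero_le_one
      _ = gateCap I.card * N := one_mul _

end Vale.Agent.Lib.P368
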