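import Vale.Agent.Lib.P368.AdvS.QForm
import Vale.Agent.Lib.P368.AdvS.Gram
import Vale.Agent.Lib.P368.AdvS.Scalar

/-!
# P368, ancilla preprocessing with the sharp exponent: the bound on the quadratic form of the
operator of a gate
-/

namespace Vale.Agent.Lib.P368

open Finset

variable {Q : Type} [Fintype Q] [DecidableEq Q]

/-- When every `m p` is unitary or has a single row of norm at most one, the quadratic form of
the operator of a gate `C` is at most the squared norm if `C` has at most one flagged qubit,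
and at most twice the squared norm in general. -/
theorem gOp_quad_sharp (τ : Q → Bool) (ε : Q → Bool → Matrix Bool Bool ℂ)
    (m : Q → Matrix Bool Bool ℂ) (C : Finset Q) (hadm : Adm τ ε)
    (hm : ∀ p, IsRow (m p) ∨ m p ∈ Matrix.unitaryGroup Bool ℂ) (ψ : StateVec Q) :
    |(ip ψ (gOp τ ε (fun p => (m p).conjTranspose * m p) C ψ)).re| ≤
      gateCap (C.filter fun p => τ p = true).card * normSqSum ψ := by
  classical
  have hex : ∀ p, ∃ u : Matrix Bool Bool ℂ, τ p = true →
      u ∈ Matrix.unitaryGroup Bool ℂ ∧ ε p = colMat u := by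
    intro p
    by_cases h : τ p = true
    · obtain ⟨u, hu, he⟩ := (hadm p).1 h
      exact ⟨u, fun _ => ⟨hu, funext he⟩⟩
    · exact ⟨1, fun h' => absurd h' h⟩
  choose u hu using hex
  rw [gOp_quad_formula τ ε u m C (fun p _ h => (hu p h).2) ψ]
  have hcontr : ∀ p, IsContr (m p) := fun p =>
    (hm p).elim (isContr_of_isRow _) (isContr_of_unitary _)
  obtain ⟨hpsd, hx, hcz⟩ := gram_facts τ ε m C (fun p _ h => (hadm p).2 h) hcontr ψ
  refine sharp_gate_bound _ (fun p => IsRow (m p))
    (fun p => K0 (kap true (m p) (u p))) (fun p => K1 (kap true (m p) (u p)))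
    (fun p => K2 (kap true (m p) (u p))) (fun p => K3 (kap true (m p) (u p)))
    ?_ ?_ (gramX τ ε m C ψ) (gramZ τ ε m C ψ) (normSqSum ψ) (gramQ τ ε m C ψ) hpsd hx hcz
  · intro p hp hrow
    have hτ : τ p = true := (Finset.mem_filter.mp hp).2
    obtain ⟨b, r, hr, hmr⟩ := hrow
    obtain ⟨a, c, ρ, s, β, h0, h1, h2, h3, hρ, h6, _⟩ :=
      rowK_values true b r (u p) hr (hu p hτ).1
    refine ⟨a, c, ρ, s, β, ?_, ?_, ?_, ?_, hρ, h6⟩
    · show K0 (kap true (m p) (u p)) = (a : ℂ)
      rw [hmr]
      exact h0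
    · show K1 (kap true (m p) (u p)) = β
      rw [hmr]
      exact h1
    · show K2 (kap true (m p) (u p)) = (starRingEnd ℂ) β
      rw [hmr]
      exact h2
    · show K3 (kap true (m p) (u p)) = (c : ℂ)
      rw [hmr]
      exact h3
  · intro p hp hnrow
    have hτ : τ p = true := (Finset.mem_filter.mp hp).2
    have hU : m p ∈ Matrix.unitaryGroup Bool ℂ := (hm p).resolve_left hnrow
    obtain ⟨d, h0, h1, h2, h3, hd, _⟩ := unitK_values true (m p) (u p) hU (hu p hτ).1
    refine ⟨d, ?_, h1, h2, h3, hd⟩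
    show K0 (kap true (m p) (u p)) = 0
    rw [h0]
    exact if_pos rfl

end Vale.Agent.Lib.P368
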